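import Mathlib

set_option autoImplicit false

namespace Crest.Agent.H0483

open Matrix Finset

/-- An orthonormal basis adapted to a level function. -/
theorem exists_adapted {ι X : Type} [Fintype ι] [Fintype X] [DecidableEq ι] [DecidableEq X]
    (hcard : Fintype.card X = Fintype.card ι) (lev : ι → ℕ) (v : ι → X → ℝ)
    (hv : LinearIndependent ℝ v) :
    ∃ O : Matrix ι X ℝ, O * Oᵀ = 1 ∧ Oᵀ * O = 1 ∧
      (∀ a, O a ∈ Submodule.span ℝ (v '' {b | lev b ≤ lev a})) ∧
      (∀ a b, lev b < lev a → ∑ x, O a x * v b x = 0) := by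
  classical
  set N := Fintype.card ι with hN
  let e0 : Fin N ≃ ι := (Fintype.equivFin ι).symm
  let σ := Tuple.sort (lev ∘ e0)
  let g : Fin N ≃ ι := σ.trans e0
  have hmono : Monotone (lev ∘ g) := Tuple.monotone_sort (lev ∘ e0)
  let L : (X → ℝ) ≃ₗ[ℝ] EuclideanSpace ℝ X := (WithLp.linearEquiv 2 ℝ (X → ℝ)).symm
  let f : Fin N → EuclideanSpace ℝ X := fun j => L (v (g j))
  have hf : LinearIndependent ℝ f := by
    have h1 : LinearIndependent ℝ (v ∘ g) := hv.comp g g.injective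
    exact h1.map' L.toLinearMap (LinearEquiv.ker L)
  have hfin : Module.finrank ℝ (EuclideanSpace ℝ X) = Fintype.card (Fin N) := by
    simp [hcard]
  let B := InnerProductSpace.gramSchmidtOrthonormalBasis hfin f
  have hB : ∀ j, B j = InnerProductSpace.gramSchmidtNormed ℝ f j := by
    intro j
    apply InnerProductSpace.gramSchmidtOrthonormalBasis_apply
    intro h0
    have := InnerProductSpace.gramSchmidtNormed_unit_length j hf
    rw [h0] at this
    simp at this
  let O : Matrix ι X ℝ := fun a x => (B (g.symm a)) x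
  have hinner : ∀ (u w : EuclideanSpace ℝ X), inner ℝ u w = ∑ x, u x * w x := by
    intro u w
    simp [PiLp.inner_apply, mul_comm]
  have h1 : O * Oᵀ = 1 := by
    ext a b
    have := orthonormal_iff_ite.1 B.orthonormal (g.symm a) (g.symm b)
    rw [hinner] at this
    rw [Matrix.mul_apply, Matrix.one_apply]
    show ∑ x, (B (g.symm a)) x * (B (g.symm b)) x = _
    rw [this]
    simp
  have h2 : Oᵀ * O = 1 := by
    have e : X ≃ ι := Fintype.equivOfCardEq hcard
    exact (Matrix.mul_eq_one_comm_of_equiv e.symm).1 h1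
  refine ⟨O, h1, h2, ?_, ?_⟩
  · intro a
    have hm : B (g.symm a) ∈ Submodule.span ℝ (f '' Set.Iic (g.symm a)) := by
      rw [hB]
      exact Submodule.smul_mem _ _ (InnerProductSpace.gramSchmidt_mem_span ℝ f le_rfl)
    have hm2 := Submodule.mem_map_of_mem (f := L.symm.toLinearMap) hm
    rw [Submodule.map_span] at hm2
    have hO : O a = L.symm.toLinearMap (B (g.symm a)) := rfl
    rw [hO]
    refine Submodule.span_mono ?_ hm2
    rintro _ ⟨_, ⟨j, hj, rfl⟩, rfl⟩
    refine ⟨g j, ?_, ?_⟩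
    · have := hmono hj
      simpa using this
    · simp [f]
  · intro a b hab
    have hlt : g.symm b < g.symm a := by
      by_contra hcon
      have := hmono (not_lt.1 hcon)
      simp at this
      omega
    have := InnerProductSpace.gramSchmidtOrthonormalBasis_inv_triangular hfin f hlt
    rw [hinner] at this
    have h3 : ∀ x, (f (g.symm b)) x = v b x := by intro x; simp [f, L]
    simp only [h3] at this
    exact this

/-- Hilbert-Schmidt norm invariance. -/
theorem hs_conj {ι X : Type} [Fintype ι] [Fintype X] [DecidableEq ι] [DecidableEq X]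
    (O : Matrix ι X ℝ) (h1 : O * Oᵀ = 1) (M : Matrix ι ι ℝ) :
    ∑ x, ∑ y, (Oᵀ * M * O) x y ^ 2 = ∑ a, ∑ b, M a b ^ 2 := by
  have key : ∀ {α : Type} [Fintype α] (A : Matrix α α ℝ),
      ∑ x, ∑ y, A x y ^ 2 = Matrix.trace (A * Aᵀ) := by
    intro α _ A
    simp [Matrix.trace, Matrix.mul_apply, sq]
  rw [key, key]
  have : Oᵀ * M * O * (Oᵀ * M * O)ᵀ = Oᵀ * (M * Mᵀ * O) := by
    simp only [Matrix.transpose_mul, Matrix.transpose_transpose, Matrix.mul_assoc]
    rw [← Matrix.mul_assoc O, h1, Matrix.one_mul]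
  rw [this, Matrix.trace_mul_comm, Matrix.mul_assoc, h1, Matrix.mul_one]

/-- sign pattern of period four -/
def sg4 (k : ℕ) : ℝ := if k % 4 = 0 ∨ k % 4 = 1 then 1 else -1

theorem sg4_sq (k : ℕ) : sg4 k * sg4 k = 1 := by
  unfold sg4; split_ifs <;> norm_num

theorem sg4_id (a b : ℕ) (h1 : a ≤ b + 1) (h2 : b ≤ a + 1) :
    sg4 a * sg4 (b + 3) + sg4 (a + 1) * sg4 b = 2 * ((b : ℝ) - a) := by
  have h : b = a ∨ b = a + 1 ∨ a = b + 1 := by omega
  rcases h with rfl | rfl | rfl
  · have : b % 4 = 0 ∨ b % 4 = 1 ∨ b % 4 = 2 ∨ b % 4 = 3 := by omega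
    rcases this with h | h | h | h <;> simp [sg4, Nat.add_mod, h]
  · have : a % 4 = 0 ∨ a % 4 = 1 ∨ a % 4 = 2 ∨ a % 4 = 3 := by omega
    rcases this with h | h | h | h <;> simp [sg4, Nat.add_mod, h] <;> norm_num
  · have : b % 4 = 0 ∨ b % 4 = 1 ∨ b % 4 = 2 ∨ b % 4 = 3 := by omega
    rcases this with h | h | h | h <;> simp [sg4, Nat.add_mod, h] <;> norm_num

theorem col_sq {X : Type} [Fintype X] [DecidableEq X] (A : Matrix X X ℝ) (h : Aᵀ * A = 1) (y : X) :
    ∑ x, A x y ^ 2 = 1 := by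
  have := congrFun (congrFun h y) y
  simpa [Matrix.mul_apply, sq] using this

theorem conj_orth {ι X : Type} [Fintype ι] [Fintype X] [DecidableEq ι] [DecidableEq X]
    (O : Matrix ι X ℝ) (h1 : O * Oᵀ = 1) (h2 : Oᵀ * O = 1) (M : Matrix ι ι ℝ)
    (hM : Mᵀ * M = 1) : (Oᵀ * M * O)ᵀ * (Oᵀ * M * O) = 1 := by
  simp only [Matrix.transpose_mul, Matrix.transpose_transpose, Matrix.mul_assoc]
  rw [← Matrix.mul_assoc O, h1, Matrix.one_mul, ← Matrix.mul_assoc Mᵀ, hM, Matrix.one_mul, h2]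

theorem hat_sq {ι X : Type} [Fintype ι] [Fintype X] [DecidableEq ι] [DecidableEq X]
    (O : Matrix ι X ℝ) (h1 : O * Oᵀ = 1) (h2 : Oᵀ * O = 1) (t : X → ℝ) (ht : ∀ x, t x * t x = 1) :
    (O * diagonal t * Oᵀ)ᵀ * (O * diagonal t * Oᵀ) = 1 := by
  simp only [Matrix.transpose_mul, Matrix.transpose_transpose, Matrix.mul_assoc,
    Matrix.diagonal_transpose]
  rw [← Matrix.mul_assoc Oᵀ, h2, Matrix.one_mul, ← Matrix.mul_assoc (diagonal t),
    Matrix.diagonal_mul_diagonal]
  simp [ht, h1]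

theorem hat_symm {ι X : Type} [Fintype ι] [Fintype X] [DecidableEq ι] [DecidableEq X]
    (O : Matrix ι X ℝ) (t : X → ℝ) :
    (O * diagonal t * Oᵀ)ᵀ = (O * diagonal t * Oᵀ) := by
  simp only [Matrix.transpose_mul, Matrix.transpose_transpose, Matrix.mul_assoc,
    Matrix.diagonal_transpose]

theorem hat_apply {ι X : Type} [Fintype ι] [Fintype X] [DecidableEq ι] [DecidableEq X]
    (O : Matrix ι X ℝ) (t : X → ℝ) (a b : ι) :
    (O * diagonal t * Oᵀ) a b = ∑ x, O a x * t x * O b x := by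
  rw [Matrix.mul_apply]
  simp [Matrix.mul_diagonal]

/-- The commutator bound. -/
theorem comm_bound {ι X : Type} [Fintype ι] [Fintype X] [DecidableEq ι] [DecidableEq X]
    (O : Matrix ι X ℝ) (h1 : O * Oᵀ = 1) (h2 : Oᵀ * O = 1) (lev : ι → ℕ) (c : ℝ)
    (t : X → ℝ) (ht : ∀ x, t x * t x = 1)
    (hband : ∀ a b, lev b + 2 ≤ lev a → (O * diagonal t * Oᵀ) a b = 0) (y : X) :
    ∑ x, ((Oᵀ * diagonal (fun a => (lev a : ℝ) - c) * O) x y) ^ 2 * (t y - t x) ^ 2 ≤ 1 := by
  set T := O * diagonal t * Oᵀ with hT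
  set L : Matrix ι ι ℝ := diagonal (fun a => (lev a : ℝ) - c) with hL
  have hTs : Tᵀ = T := hat_symm O t
  have hTT : Tᵀ * T = 1 := hat_sq O h1 h2 t ht
  let D (k : ℕ) : Matrix ι ι ℝ := diagonal (fun a => sg4 (lev a + k))
  have hD : ∀ k, D k * D k = 1 := by
    intro k
    simp [D, Matrix.diagonal_mul_diagonal, sg4_sq]
  have hDt : ∀ k, (D k)ᵀ = D k := by intro k; simp [D]
  have horth : ∀ k l, (D k * T * D l)ᵀ * (D k * T * D l) = 1 := by
    intro k l
    simp only [Matrix.transpose_mul, hDt, Matrix.mul_assoc]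
    rw [← Matrix.mul_assoc (D k), hD, Matrix.one_mul, ← Matrix.mul_assoc Tᵀ, hTT, Matrix.one_mul,
      hD]
  have hC : (2 : ℝ) • (T * L - L * T) = D 0 * T * D 3 + D 1 * T * D 0 := by
    ext a b
    simp only [Matrix.smul_apply, Matrix.sub_apply, Matrix.add_apply, D, hL, Matrix.mul_diagonal,
      Matrix.diagonal_mul, smul_eq_mul, add_zero]
    by_cases hab : lev b + 2 ≤ lev a
    · rw [hband a b hab]; ring
    by_cases hba : lev a + 2 ≤ lev b
    · have : T a b = 0 := by
        rw [← hTs, Matrix.transpose_apply]; exact hband b a hba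
      rw [this]; ring
    have := sg4_id (lev a) (lev b) (by omega) (by omega)
    linear_combination (-(T a b)) * this
  have hN : Oᵀ * (T * L - L * T) * O = diagonal t * (Oᵀ * L * O) - (Oᵀ * L * O) * diagonal t := by
    simp only [hT, Matrix.mul_sub, Matrix.sub_mul, Matrix.mul_assoc]
    rw [← Matrix.mul_assoc Oᵀ O, h2, Matrix.one_mul, Matrix.mul_one]
  have hA := col_sq _ (conj_orth O h1 h2 _ (horth 0 3)) y
  have hB := col_sq _ (conj_orth O h1 h2 _ (horth 1 0)) y
  have hsum : ∀ x, 2 * ((Oᵀ * L * O) x y * (t x - t y)) =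
      (Oᵀ * (D 0 * T * D 3) * O) x y + (Oᵀ * (D 1 * T * D 0) * O) x y := by
    intro x
    have e1 : Oᵀ * ((2 : ℝ) • (T * L - L * T)) * O =
        Oᵀ * (D 0 * T * D 3) * O + Oᵀ * (D 1 * T * D 0) * O := by
      rw [hC, Matrix.mul_add, Matrix.add_mul]
    rw [Matrix.mul_smul, Matrix.smul_mul, hN] at e1
    have e2 := congrFun (congrFun e1 x) y
    simp only [Matrix.smul_apply, Matrix.sub_apply, Matrix.add_apply, Matrix.mul_diagonal,
      Matrix.diagonal_mul, smul_eq_mul] at e2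
    linear_combination e2
  calc ∑ x, ((Oᵀ * L * O) x y) ^ 2 * (t y - t x) ^ 2
      ≤ ∑ x, (((Oᵀ * (D 0 * T * D 3) * O) x y) ^ 2 + ((Oᵀ * (D 1 * T * D 0) * O) x y) ^ 2) / 2 := by
        apply Finset.sum_le_sum
        intro x _
        have := hsum x
        set u := (Oᵀ * (D 0 * T * D 3) * O) x y
        set w := (Oᵀ * (D 1 * T * D 0) * O) x y
        have e : ((Oᵀ * L * O) x y) ^ 2 * (t y - t x) ^ 2 = ((u + w) / 2) ^ 2 := by
          rw [← this]; ring
        rw [e]
        nlinarith [sq_nonneg (u - w)]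
    _ = 1 := by
        rw [← Finset.sum_div, Finset.sum_add_distrib, hA, hB]; norm_num

/-- The coupling bound. -/
theorem coupling_bound {ι : Type} [Fintype ι] (A : ι → ℝ) (q : ι → ι → ℝ) (d r M n : ℝ)
    (hr : 0 < r) (hrn : r * r = n) (hd : 0 ≤ d) (hdr : d ≤ r)
    (hq : ∀ a b, 0 ≤ q a b) (hrow : ∀ a, ∑ b, q a b = 1) (hcol : ∀ b, ∑ a, q a b = 1)
    (hsupp : ∀ a b, A a + A b + d < 0 → q a b = 0)
    (h0 : ∑ _a : ι, (1 : ℝ) = M) (h1 : ∑ a, A a = 0) (h2 : ∑ a, A a ^ 2 = n * M / 4)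
    (h3 : ∑ a, A a ^ 3 = 0) :
    ∑ a, ∑ b, (A a + A b) ^ 2 * q a b ≤ 2 * d * r * M := by
  have hM : 0 ≤ M := by rw [← h0]; exact Finset.sum_nonneg (fun _ _ => zero_le_one)
  -- pointwise bound: (s+t)^2 ≤ φ s + φ t - stuff
  let φ : ℝ → ℝ := fun u => r * (u + d / 2) + (u + d / 2) ^ 3 / r - 2 * d * u - d ^ 2 / 2
  have hpt : ∀ a b, (A a + A b) ^ 2 * q a b ≤ (φ (A a) + φ (A b)) * q a b := by
    intro a b
    by_cases h : A a + A b + d < 0
    · rw [hsupp a b h]; simp
    apply mul_le_mul_of_nonneg_right _ (hq a b)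
    push Not at h
    simp only [φ]
    set s := A a + d / 2
    set t := A b + d / 2
    have hs : A a = s - d / 2 := by simp [s]
    have ht : A b = t - d / 2 := by simp [t]
    have hY : 0 ≤ s + t := by simp only [s, t]; linarith
    have key : (s + t) ^ 2 ≤ r * (s + t) + (s ^ 3 + t ^ 3) / r := by
      rw [← sub_nonneg]
      have : r * (s + t) + (s ^ 3 + t ^ 3) / r - (s + t) ^ 2
          = (s + t) * ((2 * r - (s + t)) ^ 2 + 3 * (s - t) ^ 2) / (4 * r) := by
        field_simp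
        ring
      rw [this]
      positivity
    rw [hs, ht]
    have : (s ^ 3 + t ^ 3) / r = s ^ 3 / r + t ^ 3 / r := by ring
    nlinarith
  calc ∑ a, ∑ b, (A a + A b) ^ 2 * q a b ≤ ∑ a, ∑ b, (φ (A a) + φ (A b)) * q a b :=
        Finset.sum_le_sum fun a _ => Finset.sum_le_sum fun b _ => hpt a b
    _ = ∑ a, φ (A a) + ∑ b, φ (A b) := by
        simp only [add_mul, Finset.sum_add_distrib]
        congr 1
        · simp only [← Finset.mul_sum, hrow, mul_one]
        · rw [Finset.sum_comm]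
          simp only [← Finset.mul_sum, hcol, mul_one]
    _ ≤ 2 * d * r * M := by
        have e : ∀ a, φ (A a) = (1 / r) * A a ^ 3 + (3 * d / (2 * r)) * A a ^ 2
            + (r + 3 * d ^ 2 / (4 * r) - 2 * d) * A a
            + (r * d / 2 + d ^ 3 / (8 * r) - d ^ 2 / 2) * 1 := by
          intro a; simp only [φ]; field_simp; ring
        simp only [e, Finset.sum_add_distrib, ← Finset.mul_sum, h0, h1, h2, h3]
        rw [← hrn]
        have e2 : 3 * d / (2 * r) * (r * r * M / 4) = 3 * d * r * M / 8 := by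
          field_simp; ring
        have e3 : d ^ 3 / (8 * r) ≤ d * r / 8 := by
          rw [div_le_div_iff₀ (by positivity) (by positivity)]
          have : d ^ 2 ≤ r ^ 2 := by gcongr
          nlinarith
        rw [e2]
        have : 0 ≤ d ^ 2 * M := by positivity
        have : d ^ 3 / (8 * r) * M ≤ d * r / 8 * M := mul_le_mul_of_nonneg_right e3 hM
        nlinarith

end Crest.Agent.H0483
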