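import Mathlib
import Crest.Agent.H0483.Basis

set_option autoImplicit false

namespace Crest.Agent.H0483

open Matrix Finset

variable {n : ℕ}

/-- sign of a coordinate -/
def sg (x : Fin n → Bool) (j : Fin n) : ℝ := if x j then 1 else -1

/-- character -/
def chi (S : Finset (Fin n)) (x : Fin n → Bool) : ℝ := ∏ j ∈ S, sg x j

/-- flip of a coordinate -/
def flp (i : Fin n) (x : Fin n → Bool) : Fin n → Bool := Function.update x i (!(x i))

theorem sg_sq (x : Fin n → Bool) (j : Fin n) : sg x j * sg x j = 1 := by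
  unfold sg; split_ifs <;> norm_num

theorem flp_flp (i : Fin n) (x : Fin n → Bool) : flp i (flp i x) = x := by
  ext j
  by_cases h : j = i
  · subst h; simp [flp]
  · simp [flp, h]

theorem sg_flp_self (i : Fin n) (x : Fin n → Bool) : sg (flp i x) i = - sg x i := by
  simp only [sg, flp, Function.update_self]
  cases x i <;> simp

theorem sg_flp_ne (i j : Fin n) (h : j ≠ i) (x : Fin n → Bool) : sg (flp i x) j = sg x j := by
  simp [sg, flp, h]

theorem chi_flp_mem (S : Finset (Fin n)) (i : Fin n) (hi : i ∈ S) (x : Fin n → Bool) :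
    chi S (flp i x) = - chi S x := by
  unfold chi
  rw [← Finset.mul_prod_erase S _ hi, ← Finset.mul_prod_erase S (fun j => sg x j) hi,
    sg_flp_self, neg_mul]
  congr 2
  apply Finset.prod_congr rfl
  intro j hj
  exact sg_flp_ne i j (Finset.ne_of_mem_erase hj) x

theorem chi_sq (S : Finset (Fin n)) (x : Fin n → Bool) : chi S x * chi S x = 1 := by
  unfold chi
  rw [← Finset.prod_mul_distrib]
  simp [sg_sq]

theorem sum_neg_inv {α : Type} [Fintype α] (τ : α → α) (hτ : ∀ a, τ (τ a) = a) (g : α → ℝ)
    (hg : ∀ a, g (τ a) = - g a) : ∑ a, g a = 0 := by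
  have e := Equiv.sum_comp (Function.Involutive.toPerm τ hτ) g
  have e2 : ∑ a, g ((Function.Involutive.toPerm τ hτ) a) = ∑ a, - g a :=
    Finset.sum_congr rfl fun a _ => hg a
  rw [e2, Finset.sum_neg_distrib] at e
  linarith

theorem sum_chi (S : Finset (Fin n)) (hS : S.Nonempty) : ∑ x, chi S x = 0 := by
  obtain ⟨i, hi⟩ := hS
  exact sum_neg_inv (flp i) (flp_flp i) _ (chi_flp_mem S i hi)

theorem chi_mul (S T : Finset (Fin n)) (x : Fin n → Bool) :
    chi S x * chi T x = chi (symmDiff S T) x := by
  have h1 : chi S x = chi (S \ T) x * chi (S ∩ T) x := by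
    unfold chi
    rw [← Finset.prod_union (Finset.disjoint_sdiff_inter S T), Finset.sdiff_union_inter]
  have h2 : chi T x = chi (T \ S) x * chi (S ∩ T) x := by
    unfold chi
    rw [Finset.inter_comm, ← Finset.prod_union (Finset.disjoint_sdiff_inter T S),
      Finset.sdiff_union_inter]
  have h3 : chi (symmDiff S T) x = chi (S \ T) x * chi (T \ S) x := by
    unfold chi
    rw [symmDiff_def, Finset.sup_eq_union, Finset.prod_union disjoint_sdiff_sdiff]
  rw [h1, h2, h3]
  have := chi_sq (S ∩ T) x
  linear_combination (chi (S \ T) x * chi (T \ S) x) * this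

theorem card_symmDiff_le (S T : Finset (Fin n)) : (symmDiff S T).card ≤ S.card + T.card := by
  calc (symmDiff S T).card ≤ (S ∪ T).card := by
        apply Finset.card_le_card
        exact symmDiff_le_sup
    _ ≤ _ := Finset.card_union_le S T

/-- functions of degree at most `k` -/
def W (n k : ℕ) : Submodule ℝ ((Fin n → Bool) → ℝ) :=
  Submodule.span ℝ (chi '' {S : Finset (Fin n) | S.card ≤ k})

theorem chi_mem_W (S : Finset (Fin n)) (k : ℕ) (h : S.card ≤ k) : chi S ∈ W n k :=
  Submodule.subset_span ⟨S, h, rfl⟩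

theorem W_mul {k l : ℕ} {g h : (Fin n → Bool) → ℝ} (hg : g ∈ W n k) (hh : h ∈ W n l) :
    g * h ∈ W n (k + l) := by
  induction hg using Submodule.span_induction with
  | mem u hu =>
    obtain ⟨S, hS, rfl⟩ := hu
    induction hh using Submodule.span_induction with
    | mem u hu =>
      obtain ⟨T, hT, rfl⟩ := hu
      have : chi S * chi T = chi (symmDiff S T) := by ext x; exact chi_mul S T x
      rw [this]
      exact chi_mem_W _ _ ((card_symmDiff_le S T).trans (add_le_add hS hT))
    | zero => simp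
    | add u w _ _ hu hw => rw [mul_add]; exact Submodule.add_mem _ hu hw
    | smul a u _ hu => rw [mul_smul_comm]; exact Submodule.smul_mem _ _ hu
  | zero => simp
  | add u w _ _ hu hw => rw [add_mul]; exact Submodule.add_mem _ hu hw
  | smul a u _ hu => rw [smul_mul_assoc]; exact Submodule.smul_mem _ _ hu

theorem W_orth {k : ℕ} (hk : k < n) {g : (Fin n → Bool) → ℝ} (hg : g ∈ W n k) :
    ∑ x, chi univ x * g x = 0 := by
  induction hg using Submodule.span_induction with
  | mem u hu =>
    obtain ⟨S, hS, rfl⟩ := hu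
    simp only [chi_mul]
    apply sum_chi
    rw [Finset.nonempty_iff_ne_empty]
    intro h0
    have : (univ : Finset (Fin n)) = S := by
      have := symmDiff_eq_bot.1 h0
      exact this
    have h2 : S.card = n := by rw [← this]; simp
    have hS' : S.card ≤ k := hS
    omega
  | zero => simp
  | add u w _ _ hu hw => simp [mul_add, Finset.sum_add_distrib, hu, hw]
  | smul a u _ hu =>
    simp only [Pi.smul_apply, smul_eq_mul, mul_left_comm _ a, ← Finset.mul_sum, hu, mul_zero]

theorem lin_indep (r : (Fin n → Bool) → ℝ) (hr : ∀ x, r x ≠ 0) :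
    LinearIndependent ℝ (fun (S : Finset (Fin n)) => fun x => r x * chi S x) := by
  rw [Fintype.linearIndependent_iff]
  intro c hc T
  have h1 : ∀ x, ∑ S, c S * chi S x = 0 := by
    intro x
    have := congrFun hc x
    simp only [Finset.sum_apply, Pi.smul_apply, smul_eq_mul, Pi.zero_apply] at this
    have h2 : r x * ∑ S, c S * chi S x = 0 := by
      rw [Finset.mul_sum, ← this]
      exact Finset.sum_congr rfl fun S _ => by ring
    exact (mul_eq_zero.1 h2).resolve_left (hr x)
  have h2 : ∑ x, chi T x * ∑ S, c S * chi S x = 0 := by simp [h1]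
  simp only [Finset.mul_sum] at h2
  rw [Finset.sum_comm] at h2
  rw [Finset.sum_eq_single T] at h2
  · have : ∀ x, chi T x * (c T * chi T x) = c T := by
      intro x
      linear_combination (c T) * chi_sq T x
    simp only [this, Finset.sum_const, nsmul_eq_mul] at h2
    simpa using h2
  · intro S _ hS
    have : ∀ x, chi T x * (c S * chi S x) = c S * chi (symmDiff T S) x := by
      intro x; rw [← chi_mul]; ring
    simp only [this, ← Finset.mul_sum]
    rw [sum_chi, mul_zero]
    rw [Finset.nonempty_iff_ne_empty]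
    intro h0
    exact hS (symmDiff_eq_bot.1 h0).symm
  · simp

/-- centred level -/
noncomputable def lv (S : Finset (Fin n)) : ℝ := (S.card : ℝ) - n / 2

theorem lv_compl (S : Finset (Fin n)) : lv Sᶜ = - lv S := by
  unfold lv
  rw [Finset.card_compl, Fintype.card_fin, Nat.cast_sub (by simpa using S.card_le_univ)]
  ring

theorem sum_lv : ∑ S : Finset (Fin n), lv S = 0 :=
  sum_neg_inv (fun S => Sᶜ) (fun S => compl_compl S) _ lv_compl

theorem sum_lv3 : ∑ S : Finset (Fin n), lv S ^ 3 = 0 :=
  sum_neg_inv (fun S => Sᶜ) (fun S => compl_compl S) _ (fun S => by rw [lv_compl]; ring)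

theorem sum_lv2 : ∑ S : Finset (Fin n), lv S ^ 2 = n * 2 ^ n / 4 := by
  let s : Finset (Fin n) → Fin n → ℝ := fun S i => if i ∈ S then 1 / 2 else -1 / 2
  have h1 : ∀ S, lv S = ∑ i, s S i := by
    intro S
    have : ∀ i, s S i = (if i ∈ S then 1 else 0) - 1 / 2 := by
      intro i; simp only [s]; split_ifs <;> norm_num
    simp only [this, Finset.sum_sub_distrib, lv]
    simp
    ring
  have h2 : ∀ i j, ∑ S, s S i * s S j = if i = j then 2 ^ n / 4 else 0 := by
    intro i j
    split_ifs with h
    · subst h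
      have : ∀ S, s S i * s S i = 1 / 4 := by
        intro S; simp only [s]; split_ifs <;> norm_num
      simp [this]
      ring
    · apply sum_neg_inv (fun S => symmDiff S {i}) (fun S => symmDiff_symmDiff_cancel_right _ _)
      intro S
      have hj : j ≠ i := fun h' => h h'.symm
      simp only [s, Finset.mem_symmDiff, Finset.mem_singleton, hj]
      by_cases hi : i ∈ S <;> by_cases hjS : j ∈ S <;> simp [hi, hjS] <;> norm_num
  simp only [h1, sq, Finset.sum_mul_sum]
  rw [Finset.sum_comm]
  have : ∀ i, ∑ S, ∑ j, s S i * s S j = 2 ^ n / 4 := by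
    intro i
    rw [Finset.sum_comm]
    simp [h2]
  simp [this]
  ring

/-- counting lemma on the cube -/
theorem cube_count (N : (Fin n → Bool) → (Fin n → Bool) → ℝ) (ψ : (Fin n → Bool) → ℝ)
    (hψ : ∀ x, ψ x * ψ x = 1)
    (hT : ∑ x, ∑ y, N x y ^ 2 = n * 2 ^ n / 4)
    (hcol : ∀ i y, ∑ x, N x y ^ 2 * (sg y i - sg x i) ^ 2 ≤ 1) :
    ∑ i : Fin n, ∑ y, (if ψ (flp i y) = ψ y then (1 : ℝ) else 0) ≤
      2 * ∑ x, ∑ y, (N x y * (ψ x + ψ y)) ^ 2 := by
  classical
  have hdiff : ∀ (x y : Fin n → Bool) i, (sg y i - sg x i) ^ 2 = if x i = y i then 0 else 4 := by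
    intro x y i
    unfold sg
    cases x i <;> cases y i <;> norm_num
  -- edge entries are at most one half
  have hedge : ∀ i y, N (flp i y) y ^ 2 ≤ 1 / 4 := by
    intro i y
    have h1 := hcol i y
    have h2 : N (flp i y) y ^ 2 * (sg y i - sg (flp i y) i) ^ 2 ≤
        ∑ x, N x y ^ 2 * (sg y i - sg x i) ^ 2 :=
      Finset.single_le_sum (f := fun x => N x y ^ 2 * (sg y i - sg x i) ^ 2)
        (fun x _ => by positivity) (Finset.mem_univ _)
    have h3 : (sg y i - sg (flp i y) i) ^ 2 = 4 := by
      rw [sg_flp_self]; linear_combination 4 * sg_sq y i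
    rw [h3] at h2
    linarith
  -- pointwise combinatorics
  have hpt : ∀ x y : Fin n → Bool, (2 : ℝ) - (∑ i, (sg y i - sg x i) ^ 2) / 4 ≤
      2 * (if x = y then 1 else 0) + ∑ i, (if x = flp i y then 1 else 0) := by
    intro x y
    simp only [hdiff]
    by_cases hxy : x = y
    · subst hxy
      have : (0 : ℝ) ≤ ∑ i, (if x = flp i x then (1 : ℝ) else 0) :=
        Finset.sum_nonneg fun i _ => by split_ifs <;> norm_num
      simp only [if_true, Finset.sum_const_zero]
      linarith
    · obtain ⟨i, hi⟩ := Function.ne_iff.1 hxy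
      have hnn : ∀ j, (0 : ℝ) ≤ (if x j = y j then (0 : ℝ) else 4) := by
        intro j; split_ifs <;> norm_num
      have hnn2 : ∀ j, (0 : ℝ) ≤ (if x = flp j y then (1 : ℝ) else 0) := by
        intro j; split_ifs <;> norm_num
      by_cases hx : x = flp i y
      · have a1 : (if x i = y i then (0 : ℝ) else 4) ≤ ∑ j, (if x j = y j then (0 : ℝ) else 4) :=
          Finset.single_le_sum (f := fun j => if x j = y j then (0 : ℝ) else 4)
            (fun j _ => hnn j) (Finset.mem_univ i)
        have a2 : (if x = flp i y then (1 : ℝ) else 0) ≤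
            ∑ j, (if x = flp j y then (1 : ℝ) else 0) :=
          Finset.single_le_sum (f := fun j => if x = flp j y then (1 : ℝ) else 0)
            (fun j _ => hnn2 j) (Finset.mem_univ i)
        rw [if_neg hi] at a1
        rw [if_pos hx] at a2
        rw [if_neg hxy]
        linarith
      · obtain ⟨j, hj⟩ := Function.ne_iff.1 hx
        have hji : j ≠ i := by
          rintro rfl
          apply hj
          simp only [flp, Function.update_self]
          revert hi
          cases x j <;> cases y j <;> simp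
        have hj' : x j ≠ y j := by
          simpa [flp, hji] using hj
        have a1 : ∑ l ∈ ({i, j} : Finset (Fin n)), (if x l = y l then (0 : ℝ) else 4) ≤
            ∑ l, (if x l = y l then (0 : ℝ) else 4) :=
          Finset.sum_le_sum_of_subset_of_nonneg (Finset.subset_univ _) (fun l _ _ => hnn l)
        rw [Finset.sum_pair hji.symm, if_neg hi, if_neg hj'] at a1
        have a2 : (0 : ℝ) ≤ ∑ j, (if x = flp j y then (1 : ℝ) else 0) :=
          Finset.sum_nonneg fun j _ => hnn2 j
        rw [if_neg hxy]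
        linarith
  have hpt2 : ∀ x y : Fin n → Bool,
      (if x = y then (1 : ℝ) else 0) + ∑ i, (if x = flp i y then (1 : ℝ) else 0) ≤ 1 := by
    intro x y
    have hne : ∀ i, flp i y ≠ y := by
      intro i h
      have := congrFun h i
      simp [flp] at this
    by_cases hxy : x = y
    · subst hxy
      simp [fun i => (hne i).symm]
    · rw [if_neg hxy, zero_add]
      by_cases hex : ∃ i, x = flp i y
      · obtain ⟨i, rfl⟩ := hex
        rw [Finset.sum_eq_single i]
        · simp
        · intro j _ hji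
          rw [if_neg]
          intro h
          have := congrFun h i
          simp [flp, hji.symm] at this
        · simp
      · push Not at hex
        simp [hex]
  set Dg := ∑ y, N y y ^ 2 with hDg
  have hsum : ∀ G : (Fin n → Bool) → (Fin n → Bool) → ℝ,
      ∑ x, ∑ y, G x y * ∑ i, (if x = flp i y then (1 : ℝ) else 0) = ∑ i, ∑ y, G (flp i y) y := by
    intro G
    simp only [Finset.mul_sum]
    rw [Finset.sum_comm]
    have : ∀ y, ∑ x, ∑ i, G x y * (if x = flp i y then (1 : ℝ) else 0) = ∑ i, G (flp i y) y := by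
      intro y
      rw [Finset.sum_comm]
      simp
    simp only [this]
    rw [Finset.sum_comm]
  have hsumd : ∀ G : (Fin n → Bool) → (Fin n → Bool) → ℝ,
      ∑ x, ∑ y, G x y * (if x = y then (1 : ℝ) else 0) = ∑ y, G y y := by
    intro G
    simp
  have hW : ∑ x, ∑ y, N x y ^ 2 * ((∑ i, (sg y i - sg x i) ^ 2) / 4) ≤ (n : ℝ) * 2 ^ n / 4 := by
    have : ∑ x, ∑ y, N x y ^ 2 * ((∑ i, (sg y i - sg x i) ^ 2) / 4) =
        (∑ y, ∑ i, ∑ x, N x y ^ 2 * (sg y i - sg x i) ^ 2) / 4 := by
      rw [Finset.sum_comm, Finset.sum_div]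
      apply Finset.sum_congr rfl
      intro y _
      rw [Finset.sum_comm, Finset.sum_div]
      apply Finset.sum_congr rfl
      intro x _
      rw [← Finset.mul_sum]; ring
    rw [this]
    have : ∑ y : Fin n → Bool, ∑ i : Fin n, ∑ x, N x y ^ 2 * (sg y i - sg x i) ^ 2 ≤
        ∑ y : Fin n → Bool, ∑ i : Fin n, (1 : ℝ) :=
      Finset.sum_le_sum fun y _ => Finset.sum_le_sum fun i _ => hcol i y
    simp only [Finset.sum_const, Finset.card_univ, Fintype.card_fin, nsmul_eq_mul, mul_one,
      Fintype.card_pi, Fintype.card_bool, Finset.prod_const] at this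
    push_cast at this
    linarith
  have hE : (n : ℝ) * 2 ^ n / 4 ≤ 2 * Dg + ∑ i, ∑ y, N (flp i y) y ^ 2 := by
    have h1 : ∑ x, ∑ y, N x y ^ 2 * ((2 : ℝ) - (∑ i, (sg y i - sg x i) ^ 2) / 4) ≤
        ∑ x, ∑ y, N x y ^ 2 *
          (2 * (if x = y then 1 else 0) + ∑ i, (if x = flp i y then 1 else 0)) :=
      Finset.sum_le_sum fun x _ => Finset.sum_le_sum fun y _ =>
        mul_le_mul_of_nonneg_left (hpt x y) (sq_nonneg _)
    have h2 : ∑ x, ∑ y, N x y ^ 2 * ((2 : ℝ) - (∑ i, (sg y i - sg x i) ^ 2) / 4) =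
        2 * (∑ x, ∑ y, N x y ^ 2) -
          ∑ x, ∑ y, N x y ^ 2 * ((∑ i, (sg y i - sg x i) ^ 2) / 4) := by
      simp only [mul_sub, Finset.sum_sub_distrib, Finset.mul_sum, mul_comm _ (2 : ℝ)]
    have h3 : ∑ x, ∑ y, N x y ^ 2 *
          (2 * (if x = y then 1 else 0) + ∑ i, (if x = flp i y then 1 else 0)) =
        2 * Dg + ∑ i, ∑ y, N (flp i y) y ^ 2 := by
      simp only [mul_add, Finset.sum_add_distrib]
      rw [hsum (fun x y => N x y ^ 2), hDg, ← hsumd (fun x y => N x y ^ 2), Finset.mul_sum]
      congr 1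
      apply Finset.sum_congr rfl
      intro x _
      rw [Finset.mul_sum]
      exact Finset.sum_congr rfl fun y _ => by ring
    rw [h2, h3, hT] at h1
    linarith
  have hS : 4 * Dg + ∑ i, ∑ y, (N (flp i y) y * (ψ (flp i y) + ψ y)) ^ 2 ≤
      ∑ x, ∑ y, (N x y * (ψ x + ψ y)) ^ 2 := by
    have h1 : ∑ x, ∑ y, (N x y * (ψ x + ψ y)) ^ 2 *
        ((if x = y then (1 : ℝ) else 0) + ∑ i, (if x = flp i y then (1 : ℝ) else 0)) ≤
        ∑ x, ∑ y, (N x y * (ψ x + ψ y)) ^ 2 :=
      Finset.sum_le_sum fun x _ => Finset.sum_le_sum fun y _ =>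
        mul_le_of_le_one_right (sq_nonneg _) (hpt2 x y)
    simp only [mul_add _ (ite _ _ _), Finset.sum_add_distrib] at h1
    rw [hsum (fun x y => (N x y * (ψ x + ψ y)) ^ 2),
      hsumd (fun x y => (N x y * (ψ x + ψ y)) ^ 2)] at h1
    have h2 : ∑ y, (N y y * (ψ y + ψ y)) ^ 2 = 4 * Dg := by
      rw [hDg, Finset.mul_sum]
      apply Finset.sum_congr rfl
      intro y _
      linear_combination (4 * N y y ^ 2) * hψ y
    rw [h2] at h1
    exact h1
  have hfin : ∀ i y, (if ψ (flp i y) = ψ y then (1 : ℝ) else 0) / 4 + N (flp i y) y ^ 2 ≤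
      1 / 4 + (N (flp i y) y * (ψ (flp i y) + ψ y)) ^ 2 / 2 := by
    intro i y
    split_ifs with h
    · rw [h]
      have : (N (flp i y) y * (ψ y + ψ y)) ^ 2 = 4 * N (flp i y) y ^ 2 := by
        linear_combination (4 * N (flp i y) y ^ 2) * hψ y
      rw [this]
      nlinarith [sq_nonneg (N (flp i y) y)]
    · have := hedge i y
      have := sq_nonneg (N (flp i y) y * (ψ (flp i y) + ψ y))
      linarith
  have hfin2 := Finset.sum_le_sum fun i (_ : i ∈ (univ : Finset (Fin n))) =>
    Finset.sum_le_sum fun y (_ : y ∈ (univ : Finset (Fin n → Bool))) => hfin i y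
  simp only [Finset.sum_add_distrib, ← Finset.sum_div, Finset.sum_const, Finset.card_univ,
    Fintype.card_fin, nsmul_eq_mul, Fintype.card_pi, Fintype.card_bool, Finset.prod_const] at hfin2
  push_cast at hfin2
  rw [mul_one] at hfin2
  have hDg0 : 0 ≤ Dg := Finset.sum_nonneg fun _ _ => sq_nonneg _
  linarith

end Crest.Agent.H0483
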